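import Vale.Agent.H74.KTV.KSubsets

/-!
The spectral gap of the Johnson graph `J(D, k)` in elementary form:
for every function `f` on the `k`-subsets of a `D`-set `A`,
`D * Var(f) ≤ Dirichlet form`, written without divisions.
The proof is by induction on `D`, conditioning on the membership of a point.
-/

namespace Vale.Agent.H74.KTV

open Finset

variable {α : Type*} [DecidableEq α]

/-- twice the sum over the Johnson edges of the squared increments -/
def dir (A : Finset α) (k : ℕ) (f : Finset α → ℝ) : ℝ :=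
  ∑ T ∈ A.powersetCard k, ∑ x ∈ T, ∑ y ∈ A \ T, (f T - f (insert y (T.erase x))) ^ 2

theorem dir_nonneg (A : Finset α) (k : ℕ) (f : Finset α → ℝ) : 0 ≤ dir A k f := by
  unfold dir
  exact Finset.sum_nonneg (fun T _ => Finset.sum_nonneg (fun x _ =>
    Finset.sum_nonneg (fun y _ => sq_nonneg _)))

theorem dir_sub_const (A : Finset α) (k : ℕ) (f : Finset α → ℝ) (c : ℝ) :
    dir A k (fun T => f T - c) = dir A k f := by
  unfold dir
  refine Finset.sum_congr rfl (fun T _ => Finset.sum_congr rfl (fun x _ =>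
    Finset.sum_congr rfl (fun y _ => ?_)))
  ring

/-- first moment of a linear statistic -/
theorem sum_sum_mem_eq (B : Finset α) (j : ℕ) (g : α → ℝ) :
    (B.card : ℝ) * ∑ T ∈ B.powersetCard j, ∑ y ∈ T, g y
      = (B.card.choose j : ℝ) * j * ∑ y ∈ B, g y := by
  rw [sum_sum_mem_swap B j (fun _ y => g y), Finset.mul_sum, Finset.mul_sum]
  refine Finset.sum_congr rfl (fun y hy => ?_)
  rw [Finset.sum_const, nsmul_eq_mul]
  have h := card_filter_mem_mul B j hy
  have h' : (((B.powersetCard j).filter (fun T => y ∈ T)).card : ℝ) * (B.card : ℝ)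
      = (B.card.choose j : ℝ) * (j : ℝ) := by exact_mod_cast h
  calc (B.card : ℝ) * ((((B.powersetCard j).filter (fun T => y ∈ T)).card : ℝ) * g y)
      = ((((B.powersetCard j).filter (fun T => y ∈ T)).card : ℝ) * (B.card : ℝ)) * g y := by ring
    _ = (B.card.choose j : ℝ) * j * g y := by rw [h']

/-- the case of singletons -/
theorem gap_one (A : Finset α) (f : Finset α → ℝ) :
    2 * (A.card : ℝ) * ((A.card.choose 1 : ℝ) * ∑ T ∈ A.powersetCard 1, f T ^ 2
        - (∑ T ∈ A.powersetCard 1, f T) ^ 2)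
      ≤ (A.card.choose 1 : ℝ) * dir A 1 f := by
  have hsum : ∀ F : Finset α → ℝ, ∑ T ∈ A.powersetCard 1, F T = ∑ x ∈ A, F {x} := by
    intro F
    rw [powersetCard_one, Finset.sum_map]
    rfl
  have hdir : dir A 1 f = ∑ x ∈ A, ∑ y ∈ A, (f {x} - f {y}) ^ 2 := by
    unfold dir
    rw [hsum]
    refine Finset.sum_congr rfl (fun x _ => ?_)
    rw [Finset.sum_singleton, sdiff_singleton_eq_erase]
    have h0 : (f {x} - f {x}) ^ 2 = 0 := by ring
    rw [← Finset.sum_erase A (f := fun y => (f {x} - f {y}) ^ 2) h0]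
    refine Finset.sum_congr rfl (fun y _ => ?_)
    rw [erase_singleton]
    rfl
  have hexp : ∑ x ∈ A, ∑ y ∈ A, (f {x} - f {y}) ^ 2
      = 2 * (A.card : ℝ) * ∑ x ∈ A, f {x} ^ 2 - 2 * (∑ x ∈ A, f {x}) ^ 2 := by
    have h1 : ∀ x ∈ A, ∑ y ∈ A, (f {x} - f {y}) ^ 2
        = (A.card : ℝ) * f {x} ^ 2 - 2 * f {x} * ∑ y ∈ A, f {y} + ∑ y ∈ A, f {y} ^ 2 := by
      intro x _
      have : ∀ y ∈ A, (f {x} - f {y}) ^ 2 = f {x} ^ 2 - 2 * f {x} * f {y} + f {y} ^ 2 := by
        intro y _; ring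
      rw [Finset.sum_congr rfl this, Finset.sum_add_distrib, Finset.sum_sub_distrib,
        Finset.sum_const, nsmul_eq_mul, ← Finset.mul_sum]
    rw [Finset.sum_congr rfl h1, Finset.sum_add_distrib, Finset.sum_sub_distrib,
      ← Finset.mul_sum, Finset.sum_const, nsmul_eq_mul, ← Finset.sum_mul, ← Finset.mul_sum]
    ring
  rw [hdir, hexp, hsum, hsum, Nat.choose_one_right]
  apply le_of_eq
  ring

/-- the cases with at most one state -/
theorem gap_trivial (A : Finset α) (k : ℕ) (f : Finset α → ℝ)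
    (h : (A.powersetCard k).card ≤ 1) :
    2 * (A.card : ℝ) * ((A.card.choose k : ℝ) * ∑ T ∈ A.powersetCard k, f T ^ 2
        - (∑ T ∈ A.powersetCard k, f T) ^ 2)
      ≤ (A.card.choose k : ℝ) * dir A k f := by
  have hR : 0 ≤ (A.card.choose k : ℝ) * dir A k f :=
    mul_nonneg (Nat.cast_nonneg _) (dir_nonneg A k f)
  have hz : (A.card.choose k : ℝ) * ∑ T ∈ A.powersetCard k, f T ^ 2
      - (∑ T ∈ A.powersetCard k, f T) ^ 2 = 0 := by
    rw [← card_powersetCard]
    rcases Nat.le_one_iff_eq_zero_or_eq_one.mp h with h0 | h1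
    · rw [h0, card_eq_zero.mp h0]; simp
    · obtain ⟨T0, hT0⟩ := card_eq_one.mp h1
      rw [h1, hT0]; simp
  rw [hz, mul_zero]
  exact hR

/-! ### the part of the Dirichlet form avoiding a point -/

/-- the Johnson moves that do not involve the point `x` -/
def dirAvoid (A : Finset α) (k : ℕ) (f : Finset α → ℝ) (x : α) : ℝ :=
  ∑ T ∈ A.powersetCard k, ∑ u ∈ T.erase x, ∑ y ∈ (A \ T).erase x,
    (f T - f (insert y (T.erase u))) ^ 2

theorem sum_ne_ne (A : Finset α) {u y : α} (hu : u ∈ A) (hy : y ∈ A) (huy : u ≠ y) (c : ℝ) :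
    ∑ x ∈ A, (if u ≠ x then (if y ≠ x then c else 0) else 0) = ((A.card : ℝ) - 2) * c := by
  rw [← Finset.sum_filter, ← Finset.sum_filter, filter_ne, filter_ne, Finset.sum_const,
    nsmul_eq_mul]
  have hy' : y ∈ A.erase u := mem_erase.mpr ⟨huy.symm, hy⟩
  rw [card_erase_of_mem hy', card_erase_of_mem hu]
  have h2 : 2 ≤ A.card := by
    have h3 : 0 < (A.erase u).card := card_pos.mpr ⟨y, hy'⟩
    rw [card_erase_of_mem hu] at h3
    omega
  have e : ((A.card - 1 - 1 : ℕ) : ℝ) = (A.card : ℝ) - 2 := by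
    have : A.card - 1 - 1 = A.card - 2 := by omega
    rw [this, Nat.cast_sub h2]
    norm_num
  rw [e]

theorem sum_dirAvoid (A : Finset α) (k : ℕ) (f : Finset α → ℝ) :
    ∑ x ∈ A, dirAvoid A k f x = ((A.card : ℝ) - 2) * dir A k f := by
  unfold dirAvoid dir
  rw [Finset.sum_comm, Finset.mul_sum]
  refine Finset.sum_congr rfl (fun T hT => ?_)
  rw [mem_powersetCard] at hT
  have h1 : ∀ x ∈ A, ∑ u ∈ T.erase x, ∑ y ∈ (A \ T).erase x,
        (f T - f (insert y (T.erase u))) ^ 2
      = ∑ u ∈ T, ∑ y ∈ A \ T,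
          (if u ≠ x then (if y ≠ x then (f T - f (insert y (T.erase u))) ^ 2 else 0) else 0) := by
    intro x _
    rw [← filter_ne' T x, Finset.sum_filter]
    refine Finset.sum_congr rfl (fun u _ => ?_)
    by_cases hux : u ≠ x
    · rw [if_pos hux, ← filter_ne' (A \ T) x, Finset.sum_filter]
      refine Finset.sum_congr rfl (fun y _ => ?_)
      rw [if_pos hux]
    · rw [if_neg hux]
      symm
      apply Finset.sum_eq_zero
      intro y _
      rw [if_neg hux]
  rw [Finset.sum_congr rfl h1, Finset.sum_comm, Finset.mul_sum]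
  refine Finset.sum_congr rfl (fun u hu => ?_)
  rw [Finset.sum_comm, Finset.mul_sum]
  refine Finset.sum_congr rfl (fun y hy => ?_)
  rw [mem_sdiff] at hy
  have huy : u ≠ y := fun h => hy.2 (h ▸ hu)
  exact sum_ne_ne A (hT.1 hu) hy.1 huy _

theorem dirAvoid_split (A : Finset α) (j : ℕ) (f : Finset α → ℝ) {x : α} (hx : x ∈ A) :
    dirAvoid A (j + 1) f x
      = dir (A.erase x) (j + 1) f + dir (A.erase x) j (fun T => f (insert x T)) := by
  unfold dirAvoid dir
  rw [sum_powersetCard_succ A j hx]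
  congr 1
  · refine Finset.sum_congr rfl (fun T hT => ?_)
    rw [mem_powersetCard] at hT
    have hxT : x ∉ T := fun h => notMem_erase x A (hT.1 h)
    rw [erase_eq_of_notMem hxT, ← erase_sdiff_comm]
  · refine Finset.sum_congr rfl (fun T hT => ?_)
    rw [mem_powersetCard] at hT
    have hxT : x ∉ T := fun h => notMem_erase x A (hT.1 h)
    have e1 : (A \ insert x T).erase x = A.erase x \ T := by
      rw [sdiff_insert, erase_idem, ← erase_sdiff_comm]
    rw [erase_insert hxT, e1]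
    refine Finset.sum_congr rfl (fun u hu => ?_)
    refine Finset.sum_congr rfl (fun y _ => ?_)
    have hxu : x ≠ u := fun h => hxT (h ▸ hu)
    rw [erase_insert_of_ne hxu, Finset.insert_comm]

/-! ### the Gram bound for linear statistics -/

theorem gram_linear (A : Finset α) (j : ℕ) (hj : j + 1 < A.card) (f : Finset α → ℝ)
    (hf : ∑ T ∈ A.powersetCard (j + 1), f T = 0) :
    ((A.card : ℝ) - 1) * ∑ x ∈ A,
        (∑ T ∈ (A.powersetCard (j + 1)).filter (fun T => x ∈ T), f T) ^ 2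
      ≤ ((A.card - 1).choose j : ℝ) * ((A.card : ℝ) - 1 - j)
          * ∑ T ∈ A.powersetCard (j + 1), f T ^ 2 := by
  set X := A.powersetCard (j + 1) with hX
  set t : α → ℝ := fun x => ∑ T ∈ X.filter (fun T => x ∈ T), f T with ht
  set l : Finset α → ℝ := fun T => ∑ x ∈ T, t x with hl
  have h1 : ∑ x ∈ A, t x ^ 2 = ∑ T ∈ X, f T * l T := by
    have h := sum_sum_mem_swap A (j + 1) (fun T x => f T * t x)
    have e1 : ∑ T ∈ A.powersetCard (j + 1), ∑ x ∈ T, f T * t x = ∑ T ∈ X, f T * l T :=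
      Finset.sum_congr rfl (fun T _ => by rw [hl, Finset.mul_sum])
    have e2 : ∑ x ∈ A, ∑ T ∈ (A.powersetCard (j + 1)).filter (fun T => x ∈ T), f T * t x
        = ∑ x ∈ A, t x ^ 2 := by
      refine Finset.sum_congr rfl (fun x _ => ?_)
      rw [← Finset.sum_mul, sq]
    rw [e1, e2] at h
    exact h.symm
  have h2 : ∑ x ∈ A, t x = 0 := by
    have h := sum_sum_mem_swap A (j + 1) (fun T _ => f T)
    have e1 : ∑ T ∈ A.powersetCard (j + 1), ∑ _x ∈ T, f T
        = ((j + 1 : ℕ) : ℝ) * ∑ T ∈ A.powersetCard (j + 1), f T := by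
      rw [Finset.mul_sum]
      refine Finset.sum_congr rfl (fun T hT => ?_)
      rw [mem_powersetCard] at hT
      rw [Finset.sum_const, nsmul_eq_mul, hT.2]
    rw [e1, hf, mul_zero] at h
    exact h.symm
  have hD1 : ((A.card - 1 : ℕ) : ℝ) = (A.card : ℝ) - 1 := by
    rw [Nat.cast_sub (by omega)]; simp
  have h3 : ∀ x ∈ A, ((A.card : ℝ) - 1) * ∑ T ∈ X.filter (fun T => x ∈ T), l T
      = ((A.card - 1).choose j : ℝ) * ((A.card : ℝ) - 1 - j) * t x := by
    intro x hx
    rw [hX, sum_filter_mem A j hx l]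
    have e1 : ∀ T ∈ (A.erase x).powersetCard j, l (insert x T) = t x + ∑ y ∈ T, t y := by
      intro T hT
      rw [mem_powersetCard] at hT
      have hxT : x ∉ T := fun h => notMem_erase x A (hT.1 h)
      rw [hl]
      exact Finset.sum_insert hxT
    rw [Finset.sum_congr rfl e1, Finset.sum_add_distrib, Finset.sum_const, nsmul_eq_mul,
      card_powersetCard, card_erase_of_mem hx, mul_add]
    have e2 := sum_sum_mem_eq (A.erase x) j t
    rw [card_erase_of_mem hx, hD1] at e2
    have e3 : ∑ y ∈ A.erase x, t y = - t x := by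
      rw [Finset.sum_erase_eq_sub hx, h2]; ring
    rw [e2, e3]
    ring
  have h4 : ((A.card : ℝ) - 1) * ∑ T ∈ X, l T ^ 2
      = ((A.card - 1).choose j : ℝ) * ((A.card : ℝ) - 1 - j) * ∑ x ∈ A, t x ^ 2 := by
    have h := sum_sum_mem_swap A (j + 1) (fun T x => l T * t x)
    have e1 : ∑ T ∈ A.powersetCard (j + 1), ∑ x ∈ T, l T * t x = ∑ T ∈ X, l T ^ 2 :=
      Finset.sum_congr rfl (fun T _ => by rw [← Finset.mul_sum, sq])
    rw [e1] at h
    rw [h, Finset.mul_sum, Finset.mul_sum]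
    refine Finset.sum_congr rfl (fun x hx => ?_)
    rw [← Finset.sum_mul]
    have := h3 x hx
    calc ((A.card : ℝ) - 1) * ((∑ T ∈ (A.powersetCard (j + 1)).filter (fun T => x ∈ T), l T) * t x)
        = (((A.card : ℝ) - 1) * ∑ T ∈ X.filter (fun T => x ∈ T), l T) * t x := by ring
      _ = ((A.card - 1).choose j : ℝ) * ((A.card : ℝ) - 1 - j) * t x ^ 2 := by rw [this]; ring
  have hcs : (∑ T ∈ X, f T * l T) ^ 2 ≤ (∑ T ∈ X, f T ^ 2) * ∑ T ∈ X, l T ^ 2 :=
    Finset.sum_mul_sq_le_sq_mul_sq X f l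
  rw [← h1] at hcs
  set U := ∑ x ∈ A, t x ^ 2 with hU
  set Q := ∑ T ∈ X, f T ^ 2 with hQ
  set V := ∑ T ∈ X, l T ^ 2 with hV
  have hU0 : 0 ≤ U := Finset.sum_nonneg (fun x _ => sq_nonneg _)
  have hQ0 : 0 ≤ Q := Finset.sum_nonneg (fun x _ => sq_nonneg _)
  have hDpos : (0 : ℝ) ≤ (A.card : ℝ) - 1 := by
    have : (1 : ℝ) ≤ (A.card : ℝ) := by exact_mod_cast (by omega : 1 ≤ A.card)
    linarith
  have hc0 : (0 : ℝ) ≤ ((A.card - 1).choose j : ℝ) * ((A.card : ℝ) - 1 - j) := by
    apply mul_nonneg (Nat.cast_nonneg _)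
    have : ((j : ℝ) + 1 + 1) ≤ (A.card : ℝ) := by exact_mod_cast (by omega : j + 1 + 1 ≤ A.card)
    linarith
  rcases hU0.eq_or_lt with hU' | hU'
  · rw [← hU', mul_zero]
    exact mul_nonneg hc0 hQ0
  · have h5 : ((A.card : ℝ) - 1) * U * U
        ≤ (((A.card - 1).choose j : ℝ) * ((A.card : ℝ) - 1 - j) * Q) * U := by
      calc ((A.card : ℝ) - 1) * U * U = ((A.card : ℝ) - 1) * U ^ 2 := by ring
        _ ≤ ((A.card : ℝ) - 1) * (Q * V) := mul_le_mul_of_nonneg_left hcs hDpos
        _ = Q * (((A.card : ℝ) - 1) * V) := by ring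
        _ = (((A.card - 1).choose j : ℝ) * ((A.card : ℝ) - 1 - j) * Q) * U := by rw [h4]; ring
    exact le_of_mul_le_mul_right h5 hU'

/-! ### the inductive step -/

theorem gap_step (A : Finset α) (j : ℕ) (hD : 3 ≤ A.card) (hj : j + 1 < A.card)
    (IH : ∀ x ∈ A, ∀ (i : ℕ) (g : Finset α → ℝ),
      2 * ((A.erase x).card : ℝ) * (((A.erase x).card.choose i : ℝ)
          * ∑ T ∈ (A.erase x).powersetCard i, g T ^ 2
          - (∑ T ∈ (A.erase x).powersetCard i, g T) ^ 2)
        ≤ ((A.erase x).card.choose i : ℝ) * dir (A.erase x) i g)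
    (f : Finset α → ℝ) (hf : ∑ T ∈ A.powersetCard (j + 1), f T = 0) :
    2 * (A.card : ℝ) * ∑ T ∈ A.powersetCard (j + 1), f T ^ 2 ≤ dir A (j + 1) f := by
  set D : ℝ := (A.card : ℝ) with hDdef
  set Np : ℝ := ((A.card - 1).choose j : ℝ) with hNpdef
  set Nm : ℝ := ((A.card - 1).choose (j + 1) : ℝ) with hNmdef
  have hNp : 0 < Np := by
    rw [hNpdef]; exact_mod_cast Nat.choose_pos (by omega : j ≤ A.card - 1)
  have hNm : 0 < Nm := by
    rw [hNmdef]; exact_mod_cast Nat.choose_pos (by omega : j + 1 ≤ A.card - 1)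
  have hD3 : (3 : ℝ) ≤ D := by rw [hDdef]; exact_mod_cast hD
  set Q := ∑ T ∈ A.powersetCard (j + 1), f T ^ 2 with hQ
  set t : α → ℝ := fun x => ∑ T ∈ (A.powersetCard (j + 1)).filter (fun T => x ∈ T), f T with ht
  have hD1 : ((A.card - 1 : ℕ) : ℝ) = D - 1 := by
    rw [Nat.cast_sub (by omega)]; simp [hDdef]
  have hper : ∀ x ∈ A, 2 * (D - 1) * (Np * Nm * Q - (Np + Nm) * t x ^ 2)
      ≤ Np * Nm * dirAvoid A (j + 1) f x := by
    intro x hx
    have hQs := sum_powersetCard_succ A j hx (fun T => f T ^ 2)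
    have hS := sum_powersetCard_succ A j hx f
    have htx : t x = ∑ T ∈ (A.erase x).powersetCard j, f (insert x T) := sum_filter_mem A j hx f
    have IHm := IH x hx (j + 1) f
    have IHp := IH x hx j (fun T => f (insert x T))
    rw [card_erase_of_mem hx, hD1] at IHm IHp
    rw [dirAvoid_split A j f hx]
    rw [← htx] at IHp
    have hSm : ∑ T ∈ (A.erase x).powersetCard (j + 1), f T = - t x := by
      rw [hf] at hS; rw [htx]; linarith
    rw [hSm] at IHm
    rw [hQ, hQs]
    have e1 := mul_le_mul_of_nonneg_left IHm hNp.le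
    have e2 := mul_le_mul_of_nonneg_left IHp hNm.le
    nlinarith [e1, e2]
  have hsum : 2 * (D - 1) * (Np * Nm * D * Q - (Np + Nm) * ∑ x ∈ A, t x ^ 2)
      ≤ Np * Nm * ((D - 2) * dir A (j + 1) f) := by
    have h := Finset.sum_le_sum hper
    have eR : ∑ x ∈ A, Np * Nm * dirAvoid A (j + 1) f x
        = Np * Nm * ((D - 2) * dir A (j + 1) f) := by
      rw [← Finset.mul_sum, sum_dirAvoid]
    have e : ∑ x ∈ A, 2 * (D - 1) * (Np * Nm * Q - (Np + Nm) * t x ^ 2)
        = 2 * (D - 1) * (Np * Nm * D * Q - (Np + Nm) * ∑ x ∈ A, t x ^ 2) := by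
      rw [← Finset.mul_sum, Finset.sum_sub_distrib, Finset.sum_const, nsmul_eq_mul,
        ← Finset.mul_sum]
      ring
    rw [e, eR] at h
    exact h
  have hG := gram_linear A j hj f hf
  have hpas : (Np + Nm) * (D - 1 - j) = D * Nm := by
    obtain ⟨m, hm⟩ : ∃ m, A.card = m + 1 := ⟨A.card - 1, by omega⟩
    have h1 := Nat.choose_mul_succ_eq m (j + 1)
    have h2 : (m + 1).choose (j + 1) = m.choose j + m.choose (j + 1) := Nat.choose_succ_succ m j
    have h3 : m + 1 - (j + 1) = m - j := by omega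
    rw [h3, h2] at h1
    have hjm : j ≤ m := by omega
    have h4 : ((m.choose (j + 1) : ℝ)) * ((m : ℝ) + 1)
        = ((m.choose j : ℝ) + (m.choose (j + 1) : ℝ)) * ((m : ℝ) - j) := by
      have := congrArg (fun n : ℕ => (n : ℝ)) h1
      simp only [Nat.cast_mul, Nat.cast_add, Nat.cast_one, Nat.cast_sub hjm] at this
      exact this
    rw [hNpdef, hNmdef, hDdef, hm]
    simp only [Nat.add_sub_cancel, Nat.cast_add, Nat.cast_one]
    linarith
  have hQ0 : 0 ≤ Q := Finset.sum_nonneg (fun x _ => sq_nonneg _)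
  have h1 : (D - 1) * (Np + Nm) * ∑ x ∈ A, t x ^ 2 ≤ Np * D * Nm * Q := by
    calc (D - 1) * (Np + Nm) * ∑ x ∈ A, t x ^ 2
        = (Np + Nm) * ((D - 1) * ∑ x ∈ A, t x ^ 2) := by ring
      _ ≤ (Np + Nm) * (Np * (D - 1 - j) * Q) :=
          mul_le_mul_of_nonneg_left hG (by linarith)
      _ = Np * ((Np + Nm) * (D - 1 - j)) * Q := by ring
      _ = Np * D * Nm * Q := by rw [hpas]; ring
  have h2 : Np * Nm * (D - 2) * (2 * D * Q) ≤ Np * Nm * (D - 2) * dir A (j + 1) f := by
    nlinarith [hsum, h1]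
  have hpos : 0 < Np * Nm * (D - 2) := by
    have : 0 < D - 2 := by linarith
    positivity
  exact le_of_mul_le_mul_left h2 hpos

/-! ### the gap -/

theorem johnson_gap_aux : ∀ (n : ℕ) (A : Finset α), A.card = n → ∀ (k : ℕ) (f : Finset α → ℝ),
    2 * (A.card : ℝ) * ((A.card.choose k : ℝ) * ∑ T ∈ A.powersetCard k, f T ^ 2
        - (∑ T ∈ A.powersetCard k, f T) ^ 2)
      ≤ (A.card.choose k : ℝ) * dir A k f := by
  intro n
  induction n with
  | zero =>
    intro A hA k f
    apply gap_trivial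
    rw [card_powersetCard, hA]
    cases k with
    | zero => simp
    | succ k => simp
  | succ n ih =>
    intro A hA k f
    by_cases hk0 : k = 0
    · apply gap_trivial
      rw [card_powersetCard, hk0]; simp
    by_cases hkD : A.card ≤ k
    · apply gap_trivial
      rw [card_powersetCard]
      rcases hkD.eq_or_lt with h | h
      · rw [← h]; simp
      · rw [Nat.choose_eq_zero_of_lt h]; omega
    by_cases hk1 : k = 1
    · rw [hk1]; exact gap_one A f
    obtain ⟨j, rfl⟩ : ∃ j, k = j + 1 := ⟨k - 1, by omega⟩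
    have hj : j + 1 < A.card := by omega
    have hD : 3 ≤ A.card := by omega
    have IH : ∀ x ∈ A, ∀ (i : ℕ) (g : Finset α → ℝ),
        2 * ((A.erase x).card : ℝ) * (((A.erase x).card.choose i : ℝ)
            * ∑ T ∈ (A.erase x).powersetCard i, g T ^ 2
            - (∑ T ∈ (A.erase x).powersetCard i, g T) ^ 2)
          ≤ ((A.erase x).card.choose i : ℝ) * dir (A.erase x) i g := by
      intro x hx i g
      exact ih (A.erase x) (by rw [card_erase_of_mem hx, hA]; rfl) i g
    set N : ℝ := (A.card.choose (j + 1) : ℝ) with hN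
    have hNpos : 0 < N := by
      rw [hN]; exact_mod_cast Nat.choose_pos (by omega : j + 1 ≤ A.card)
    set S := ∑ T ∈ A.powersetCard (j + 1), f T with hS
    set m : ℝ := S / N with hm
    have hg0 : ∑ T ∈ A.powersetCard (j + 1), (f T - m) = 0 := by
      rw [Finset.sum_sub_distrib, Finset.sum_const, nsmul_eq_mul, card_powersetCard, ← hN, ← hS,
        hm]
      field_simp
      ring
    have hstep := gap_step A j hD hj IH (fun T => f T - m) hg0
    rw [dir_sub_const] at hstep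
    have hg2 : ∑ T ∈ A.powersetCard (j + 1), (f T - m) ^ 2
        = ∑ T ∈ A.powersetCard (j + 1), f T ^ 2 - 2 * m * S + N * m ^ 2 := by
      have : ∀ T ∈ A.powersetCard (j + 1), (f T - m) ^ 2 = f T ^ 2 - 2 * m * f T + m ^ 2 := by
        intro T _; ring
      rw [Finset.sum_congr rfl this, Finset.sum_add_distrib, Finset.sum_sub_distrib,
        ← Finset.mul_sum, Finset.sum_const, nsmul_eq_mul, card_powersetCard]
    have hkey : N * ∑ T ∈ A.powersetCard (j + 1), f T ^ 2 - S ^ 2
        = N * ∑ T ∈ A.powersetCard (j + 1), (f T - m) ^ 2 := by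
      rw [hg2, hm]
      field_simp
      ring
    rw [hkey]
    calc 2 * (A.card : ℝ) * (N * ∑ T ∈ A.powersetCard (j + 1), (f T - m) ^ 2)
        = N * (2 * (A.card : ℝ) * ∑ T ∈ A.powersetCard (j + 1), (f T - m) ^ 2) := by ring
      _ ≤ N * dir A (j + 1) f := mul_le_mul_of_nonneg_left hstep hNpos.le

/-- **Johnson gap.** For every function on the `k`-subsets of `A`, with `D = |A|` and
`N` the number of `k`-subsets: `2 D (N ∑ f² - (∑ f)²) ≤ N * dir`. -/
theorem johnson_gap (A : Finset α) (k : ℕ) (f : Finset α → ℝ) :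
    2 * (A.card : ℝ) * ((A.card.choose k : ℝ) * ∑ T ∈ A.powersetCard k, f T ^ 2
        - (∑ T ∈ A.powersetCard k, f T) ^ 2)
      ≤ (A.card.choose k : ℝ) * dir A k f :=
  johnson_gap_aux A.card A rfl k f

/-- **Johnson gap, mean form.** `2 D ∑ (f - mean)² ≤ dir` (the right side is twice the sum over
the Johnson edges of the squared increments, so this is `D * Var ≤ Dirichlet form`). -/
theorem johnson_gap_mean (A : Finset α) (k : ℕ) (f : Finset α → ℝ) :
    2 * (A.card : ℝ) * (∑ T ∈ A.powersetCard k,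
        (f T - (∑ S ∈ A.powersetCard k, f S) / ((A.powersetCard k).card : ℝ)) ^ 2)
      ≤ ∑ T ∈ A.powersetCard k, ∑ x ∈ T, ∑ y ∈ A \ T,
          (f T - f (insert y (T.erase x))) ^ 2 := by
  have h := johnson_gap A k f
  rw [← card_powersetCard] at h
  set N : ℝ := ((A.powersetCard k).card : ℝ) with hN
  set S := ∑ T ∈ A.powersetCard k, f T with hS
  have hN0 : 0 ≤ N := Nat.cast_nonneg _
  rcases hN0.eq_or_lt with h0 | hpos
  · have hc : (A.powersetCard k).card = 0 := by
      have : ((A.powersetCard k).card : ℝ) = 0 := by rw [← hN, ← h0]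
      exact_mod_cast this
    rw [card_eq_zero.mp hc]
    simp
  · have hg2 : ∑ T ∈ A.powersetCard k, (f T - S / N) ^ 2
        = ∑ T ∈ A.powersetCard k, f T ^ 2 - 2 * (S / N) * S + N * (S / N) ^ 2 := by
      have : ∀ T ∈ A.powersetCard k,
          (f T - S / N) ^ 2 = f T ^ 2 - 2 * (S / N) * f T + (S / N) ^ 2 := by
        intro T _; ring
      rw [Finset.sum_congr rfl this, Finset.sum_add_distrib, Finset.sum_sub_distrib,
        ← Finset.mul_sum, Finset.sum_const, nsmul_eq_mul]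
    have hkey : N * ∑ T ∈ A.powersetCard k, f T ^ 2 - S ^ 2
        = N * ∑ T ∈ A.powersetCard k, (f T - S / N) ^ 2 := by
      rw [hg2]
      field_simp
      ring
    rw [hkey] at h
    have h2 : N * (2 * (A.card : ℝ) * ∑ T ∈ A.powersetCard k, (f T - S / N) ^ 2)
        ≤ N * dir A k f := by
      calc N * (2 * (A.card : ℝ) * ∑ T ∈ A.powersetCard k, (f T - S / N) ^ 2)
          = 2 * (A.card : ℝ) * (N * ∑ T ∈ A.powersetCard k, (f T - S / N) ^ 2) := by ring
        _ ≤ N * dir A k f := h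
    exact le_of_mul_le_mul_left h2 hpos

end Vale.Agent.H74.KTV
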