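import Mathlib

/-!
Sums over the `k`-element subsets of a finite set `A`: splitting along the membership
of a point, exchanging the order of summation, and the resulting counts.
-/

namespace Vale.Agent.H74.KTV

open Finset

variable {α : Type*} [DecidableEq α]

/-- the subsets without `x` -/
theorem filter_not_mem_powersetCard (A : Finset α) (k : ℕ) (x : α) :
    (A.powersetCard k).filter (fun T => x ∉ T) = (A.erase x).powersetCard k := by
  ext T
  simp only [mem_filter, mem_powersetCard, subset_erase]
  tauto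

/-- the subsets containing `x` -/
theorem filter_mem_powersetCard_succ (A : Finset α) (k : ℕ) {x : α} (hx : x ∈ A) :
    (A.powersetCard (k + 1)).filter (fun T => x ∈ T)
      = ((A.erase x).powersetCard k).image (insert x) := by
  ext T
  simp only [mem_filter, mem_powersetCard, mem_image, subset_erase]
  constructor
  · rintro ⟨⟨hTA, hcard⟩, hxT⟩
    refine ⟨T.erase x, ⟨⟨(erase_subset x T).trans hTA, notMem_erase x T⟩, ?_⟩, insert_erase hxT⟩
    rw [card_erase_of_mem hxT, hcard]; rfl
  · rintro ⟨T₀, ⟨⟨hT₀A, hxT₀⟩, hcard⟩, rfl⟩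
    refine ⟨⟨insert_subset hx hT₀A, ?_⟩, mem_insert_self x T₀⟩
    rw [card_insert_of_notMem hxT₀, hcard]

theorem sum_image_insert (S : Finset (Finset α)) (x : α) (hS : ∀ T ∈ S, x ∉ T)
    (F : Finset α → ℝ) :
    ∑ T ∈ S.image (insert x), F T = ∑ T ∈ S, F (insert x T) := by
  apply Finset.sum_image
  intro T hT T' hT' h
  have h1 : (insert x T).erase x = (insert x T').erase x := by rw [h]
  rwa [erase_insert (hS T hT), erase_insert (hS T' hT')] at h1

/-- sum over the subsets containing `x` -/
theorem sum_filter_mem (A : Finset α) (k : ℕ) {x : α} (hx : x ∈ A) (F : Finset α → ℝ) :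
    ∑ T ∈ (A.powersetCard (k + 1)).filter (fun T => x ∈ T), F T
      = ∑ T ∈ (A.erase x).powersetCard k, F (insert x T) := by
  rw [filter_mem_powersetCard_succ A k hx]
  apply sum_image_insert
  intro T hT
  rw [mem_powersetCard] at hT
  exact fun h => notMem_erase x A (hT.1 h)

/-- sum over the subsets containing `w` and not `z` -/
theorem sum_filter_mem_not_mem (A : Finset α) (k : ℕ) {w z : α} (hw : w ∈ A) (hwz : w ≠ z)
    (F : Finset α → ℝ) :
    ∑ T ∈ (A.powersetCard (k + 1)).filter (fun T => w ∈ T ∧ z ∉ T), F T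
      = ∑ T ∈ ((A.erase w).erase z).powersetCard k, F (insert w T) := by
  have h1 : (A.powersetCard (k + 1)).filter (fun T => w ∈ T ∧ z ∉ T)
      = ((A.erase z).powersetCard (k + 1)).filter (fun T => w ∈ T) := by
    rw [← filter_not_mem_powersetCard, filter_filter]
    apply filter_congr
    intro T _
    tauto
  have hw' : w ∈ A.erase z := mem_erase.mpr ⟨hwz, hw⟩
  rw [h1, sum_filter_mem (A.erase z) k hw' F, erase_right_comm]

/-- split of a sum over the subsets of size `k+1` along the membership of `x` -/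
theorem sum_powersetCard_succ (A : Finset α) (k : ℕ) {x : α} (hx : x ∈ A) (F : Finset α → ℝ) :
    ∑ T ∈ A.powersetCard (k + 1), F T
      = ∑ T ∈ (A.erase x).powersetCard (k + 1), F T
        + ∑ T ∈ (A.erase x).powersetCard k, F (insert x T) := by
  have h := Finset.sum_filter_add_sum_filter_not (A.powersetCard (k + 1)) (fun T => x ∈ T) F
  rw [sum_filter_mem A k hx F, filter_not_mem_powersetCard A (k + 1) x] at h
  linarith

/-! ### exchanging the order of summation -/

theorem sum_sum_mem_swap (A : Finset α) (k : ℕ) (G : Finset α → α → ℝ) :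
    ∑ T ∈ A.powersetCard k, ∑ x ∈ T, G T x
      = ∑ x ∈ A, ∑ T ∈ (A.powersetCard k).filter (fun T => x ∈ T), G T x := by
  have h1 : ∀ T ∈ A.powersetCard k, ∑ x ∈ T, G T x = ∑ x ∈ A, if x ∈ T then G T x else 0 := by
    intro T hT
    rw [mem_powersetCard] at hT
    rw [Finset.sum_ite_mem, inter_eq_right.mpr hT.1]
  rw [Finset.sum_congr rfl h1, Finset.sum_comm]
  refine Finset.sum_congr rfl (fun x _ => ?_)
  rw [Finset.sum_filter]

theorem sum_sum_not_mem_swap (A : Finset α) (k : ℕ) (G : Finset α → α → ℝ) :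
    ∑ T ∈ A.powersetCard k, ∑ y ∈ A \ T, G T y
      = ∑ y ∈ A, ∑ T ∈ (A.powersetCard k).filter (fun T => y ∉ T), G T y := by
  have h1 : ∀ T ∈ A.powersetCard k, ∑ y ∈ A \ T, G T y = ∑ y ∈ A, if y ∉ T then G T y else 0 := by
    intro T _
    rw [sdiff_eq_filter, Finset.sum_filter]
  rw [Finset.sum_congr rfl h1, Finset.sum_comm]
  refine Finset.sum_congr rfl (fun x _ => ?_)
  rw [Finset.sum_filter]

theorem sum_sum_cut_swap (A : Finset α) (k : ℕ) (G : Finset α → α → α → ℝ) :
    ∑ T ∈ A.powersetCard k, ∑ x ∈ T, ∑ y ∈ A \ T, G T x y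
      = ∑ x ∈ A, ∑ y ∈ A,
          ∑ T ∈ (A.powersetCard k).filter (fun T => x ∈ T ∧ y ∉ T), G T x y := by
  rw [sum_sum_mem_swap A k (fun T x => ∑ y ∈ A \ T, G T x y)]
  refine Finset.sum_congr rfl (fun x _ => ?_)
  have h1 : ∀ T ∈ (A.powersetCard k).filter (fun T => x ∈ T),
      ∑ y ∈ A \ T, G T x y = ∑ y ∈ A, if y ∉ T then G T x y else 0 := by
    intro T _
    rw [sdiff_eq_filter, Finset.sum_filter]
  rw [Finset.sum_congr rfl h1, Finset.sum_comm]
  refine Finset.sum_congr rfl (fun y _ => ?_)
  rw [← Finset.sum_filter, filter_filter]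

/-! ### counts -/

theorem card_filter_mem_mul (A : Finset α) (k : ℕ) {x : α} (hx : x ∈ A) :
    ((A.powersetCard k).filter (fun T => x ∈ T)).card * A.card = (A.card.choose k) * k := by
  cases k with
  | zero =>
    have : (A.powersetCard 0).filter (fun T => x ∈ T) = ∅ := by
      rw [powersetCard_zero]
      ext T
      simp only [mem_filter, mem_singleton, notMem_empty, iff_false, not_and]
      rintro rfl
      exact notMem_empty x
    rw [this]; simp
  | succ j =>
    have h1 : ((A.powersetCard (j + 1)).filter (fun T => x ∈ T)).card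
        = (A.card - 1).choose j := by
      have := sum_filter_mem A j hx (fun _ => (1 : ℝ))
      simp only [sum_const, nsmul_eq_mul, mul_one] at this
      have h2 : ((A.powersetCard (j + 1)).filter (fun T => x ∈ T)).card
          = ((A.erase x).powersetCard j).card := by exact_mod_cast this
      rw [h2, card_powersetCard, card_erase_of_mem hx]
    have hpos : 0 < A.card := card_pos.mpr ⟨x, hx⟩
    obtain ⟨m, hm⟩ : ∃ m, A.card = m + 1 := ⟨A.card - 1, by omega⟩
    rw [h1, hm]
    simp only [Nat.add_sub_cancel]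
    rw [mul_comm]
    exact Nat.add_one_mul_choose_eq m j

theorem card_filter_not_mem_mul (A : Finset α) (k : ℕ) {x : α} (hx : x ∈ A) :
    ((A.powersetCard k).filter (fun T => x ∉ T)).card * A.card
      = (A.card.choose k) * (A.card - k) := by
  rw [filter_not_mem_powersetCard, card_powersetCard, card_erase_of_mem hx]
  have hpos : 0 < A.card := card_pos.mpr ⟨x, hx⟩
  obtain ⟨m, hm⟩ : ∃ m, A.card = m + 1 := ⟨A.card - 1, by omega⟩
  rw [hm]
  simp only [Nat.add_sub_cancel]
  exact Nat.choose_mul_succ_eq m k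

theorem card_filter_mem_not_mem_mul (A : Finset α) (k : ℕ) {w z : α} (hw : w ∈ A) (hz : z ∈ A)
    (hwz : w ≠ z) :
    ((A.powersetCard k).filter (fun T => w ∈ T ∧ z ∉ T)).card * (A.card * (A.card - 1))
      = (A.card.choose k) * (k * (A.card - k)) := by
  have h1 : (A.powersetCard k).filter (fun T => w ∈ T ∧ z ∉ T)
      = ((A.erase z).powersetCard k).filter (fun T => w ∈ T) := by
    rw [← filter_not_mem_powersetCard, filter_filter]
    apply filter_congr
    intro T _
    tauto
  have hw' : w ∈ A.erase z := mem_erase.mpr ⟨hwz, hw⟩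
  have h2 := card_filter_mem_mul (A.erase z) k hw'
  rw [card_erase_of_mem hz] at h2
  have h3 : 2 ≤ A.card := by
    have : ({w, z} : Finset α) ⊆ A := by
      intro y hy
      simp only [mem_insert, mem_singleton] at hy
      rcases hy with rfl | rfl <;> assumption
    have h4 := card_le_card this
    rwa [card_pair hwz] at h4
  obtain ⟨m, hm⟩ : ∃ m, A.card = m + 2 := ⟨A.card - 2, by omega⟩
  rw [h1]
  rw [hm] at h2 ⊢
  have e1 : m + 2 - 1 = m + 1 := by omega
  rw [e1] at h2 ⊢
  have h5 := Nat.choose_mul_succ_eq (m + 1) k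
  have e2 : m + 1 + 1 - k = m + 2 - k := by omega
  rw [e2] at h5
  calc (((A.erase z).powersetCard k).filter (fun T => w ∈ T)).card * ((m + 2) * (m + 1))
      = ((((A.erase z).powersetCard k).filter (fun T => w ∈ T)).card * (m + 1)) * (m + 2) := by
        ring
    _ = ((m + 1).choose k * k) * (m + 2) := by rw [h2]
    _ = ((m + 1).choose k * (m + 1 + 1)) * k := by ring
    _ = ((m + 2).choose k * (m + 2 - k)) * k := by rw [h5]
    _ = (m + 2).choose k * (k * (m + 2 - k)) := by ring

end Vale.Agent.H74.KTV
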